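import Vale.Agent.P194.Final

namespace Vale.Agent.Results.P186.NotResiduallyFinite

/-- word-hyperbolic: a finite generating set and `δ`-thin geodesic triangles in the Cayley graph -/
def IsWordHyperbolic (G : Type) [Group G] : Prop :=
  ∃ T : Set G, T.Finite ∧ Subgroup.closure T = ⊤ ∧ ∃ δ : ℕ,
    ∀ (x y z : G) (p : (SimpleGraph.mulCayley T).Walk x y) (q : (SimpleGraph.mulCayley T).Walk y z)
      (r : (SimpleGraph.mulCayley T).Walk z x),
      p.length = (SimpleGraph.mulCayley T).dist x y →
      q.length = (SimpleGraph.mulCayley T).dist y z →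
      r.length = (SimpleGraph.mulCayley T).dist z x →
      ∀ u ∈ p.support, ∃ v, (v ∈ q.support ∨ v ∈ r.support) ∧
        (SimpleGraph.mulCayley T).dist u v ≤ δ

theorem result :
    ∃ (G : Type) (_ : Group G), IsWordHyperbolic G ∧ ¬ Group.ResiduallyFinite G := by
  obtain ⟨G, _, ⟨T, a, b, c⟩, h⟩ := Vale.Agent.P194.not_rf
  rw [Vale.Agent.P194.cayley_eq] at c
  exact ⟨G, inferInstance, ⟨T, a, b, c⟩, h⟩

end Vale.Agent.Results.P186.NotResiduallyFinite
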